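import Vale.Agent.P240.Theta

/-!
# The character of the join lemma over an arbitrary field
-/

set_option linter.unusedSectionVars false

open scoped Classical
open IsMulCommutative

noncomputable section

namespace Vale.Agent.P240.Modular

variable {p : ℕ} [hp : Fact p.Prime] {G : Type*} [Group G] [Finite G]
  {V : Subgroup G} [V.Normal] [IsMulCommutative V]

/-- A faithful elementary abelian `B` has `n` independent maximal subgroups and a character of
`V`, trivial on the fixed points of `B`, nontrivial on those of each of them. -/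
theorem exists_theta {k : Type*} [Field k] [HasEnoughRootsOfUnity k (Monoid.exponent V)]
    (hV : (Nat.card V).Coprime p) {B : Subgroup G} (hB : IsElem p B)
    (hfaith : ∀ d ∈ B, (∀ w : V, d * (w : G) = w * d) → d = 1) :
    ∃ (n : ℕ) (H : Fin n → Subgroup G) (b : Fin n → G) (θ : V →* kˣ),
      Nat.card B ≤ p ^ n ∧ (∀ i, b i ∈ B ∧ b i ∉ H i) ∧ (∀ i j, i ≠ j → b i ∈ H j) ∧
      (∀ i, H i ≤ B ∧ ∃ w : V, Fixed (H i) w ∧ θ w ≠ 1) ∧
      ∀ w : V, Fixed B w → θ w = 1 := by
  set Cand : Set (Subgroup G) := {K | MaxIn K B ∧ ∃ w : V, Fixed K w ∧ ¬ Fixed B w} with hCand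
  set good : Set (Finset (Subgroup G)) :=
    {s | ↑s ⊆ Cand ∧ B ⊓ s.inf id = ⊥} with hgood
  have hne : good.Nonempty := by
    refine ⟨(Set.toFinite Cand).toFinset, by simp, Subgroup.ext fun d => ?_⟩
    simp only [Subgroup.mem_inf, Subgroup.mem_bot]
    refine ⟨fun ⟨hdB, hd⟩ => hfaith d hdB fun w => centralizes_of_mem_max hV hB hdB
      (fun K hK u hu hu' => ?_) w, fun e => e ▸ ⟨B.one_mem, Subgroup.one_mem _⟩⟩
    exact (Finset.inf_le (f := id) ((Set.toFinite Cand).mem_toFinset.2 ⟨hK, u, hu, hu'⟩)) hd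
  obtain ⟨s, hs⟩ := (Set.toFinite good).exists_minimal hne
  obtain ⟨hsC, hsbot⟩ := hs.1
  have hex : ∀ K ∈ s, ∃ b ∈ B, b ∉ K ∧ ∀ K' ∈ s, K' ≠ K → b ∈ K' := by
    intro K hK
    have hnb : B ⊓ (s.erase K).inf id ≠ ⊥ := fun e => (Finset.notMem_erase K s)
      ((hs.2 ⟨fun x hx => hsC (Finset.mem_of_mem_erase hx), e⟩ (Finset.erase_subset K s)) hK)
    obtain ⟨b, hb, hb1⟩ := (Subgroup.bot_or_exists_ne_one _).resolve_left hnb
    refine ⟨b, hb.1, fun hbK => hb1 ?_, fun K' hK' hne' =>
      (Finset.inf_le (f := id) (Finset.mem_erase.2 ⟨hne', hK'⟩)) hb.2⟩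
    have : b ∈ B ⊓ s.inf id := by
      refine ⟨hb.1, ?_⟩
      rw [← Finset.insert_erase hK, Finset.inf_insert]
      exact ⟨hbK, hb.2⟩
    rwa [hsbot, Subgroup.mem_bot] at this
  have hcard : ∀ t : Finset (Subgroup G), ↑t ⊆ Cand →
      Nat.card B ≤ Nat.card ↥(B ⊓ t.inf id) * p ^ t.card := by
    intro t
    induction t using Finset.induction_on with
    | empty => simp
    | insert K t hKt ih =>
      intro ht
      rw [Finset.coe_insert, Set.insert_subset_iff] at ht
      refine (ih ht.2).trans ?_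
      have hstep := card_le_inf_mul hB ht.1.1 (inf_le_left (b := t.inf id))
      rw [Finset.card_insert_of_notMem hKt, pow_succ', ← mul_assoc]
      refine Nat.mul_le_mul_right _ (hstep.trans (le_of_eq ?_))
      rw [Finset.inf_insert, id, inf_assoc, inf_comm (t.inf id) K]
  let e := s.equivFin.symm
  have hexb : ∀ i : Fin s.card, ∃ b ∈ B, b ∉ (e i : Subgroup G) ∧
      ∀ K' ∈ s, K' ≠ (e i : Subgroup G) → b ∈ K' := fun i => hex _ (e i).2
  choose b hb1 hb2 hb3 using hexb
  have hsCi : ∀ i, MaxIn (e i : Subgroup G) B := fun i => (hsC (e i).2).1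
  choose v hv1 hv2 using fun i => (hsC (e i).2).2
  let ψ : Fin s.card → (V →* V) := fun i =>
    (normMap V (e i : Subgroup G)) ^ p * (normMap V B)⁻¹
  have hψne : ∀ i, ψ i (v i) ≠ 1 := by
    intro i h
    simp only [ψ, MonoidHom.mul_apply, MonoidHom.pow_apply, MonoidHom.inv_apply,
      normMap_of_fixed _ (hv1 i), mul_inv_eq_one, ← pow_mul, ← card_maxIn hB (hsCi i)] at h
    refine hv2 i (fixed_iff_act.2 fun g hg => ?_)
    have hgf : act V g (v i ^ Nat.card B) = v i ^ Nat.card B := by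
      rw [h]; exact fixed_iff_act.1 (normMap_fixed B _) g hg
    obtain ⟨m, hm⟩ := IsPGroup.iff_card.1 hB.isPGroup
    have hinj : ∀ x y : V, x ^ Nat.card B = y ^ Nat.card B → x = y := fun x y hxy =>
      (powCoprime (hm ▸ hV.pow_right m : (Nat.card V).Coprime (Nat.card B))).injective hxy
    exact hinj _ _ (by rw [← map_pow, hgf])
  have hne0 : ∀ i, ∃ χ : V →* kˣ, χ (ψ i (v i)) ≠ 1 := fun i => by
    exact CommGroup.exists_apply_ne_one_of_hasEnoughRootsOfUnity V k (hψne i)
  choose χ hχ using hne0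
  have hkill : ∀ i j, i ≠ j → ∀ w : V, Fixed (e j : Subgroup G) w → ψ i w = 1 := by
    intro i j hij w hw
    simp only [ψ, MonoidHom.mul_apply, MonoidHom.pow_apply, MonoidHom.inv_apply]
    rw [normMap_eq_pow hB (hsCi i) (hsCi j)
      (fun h => hij (e.injective (Subtype.ext h))) hw, mul_inv_cancel]
  refine ⟨s.card, fun i => e i, b, ∏ i, (χ i).comp (ψ i), ?_, fun i => ⟨hb1 i, hb2 i⟩,
    fun i j hij => hb3 i _ (e j).2 (fun h => hij (e.injective (Subtype.ext h.symm))),
    fun i => ⟨(hsCi i).1.le, v i, hv1 i, ?_⟩, fun w hw => ?_⟩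
  · have := hcard s hsC
    rwa [hsbot, Subgroup.card_bot, one_mul] at this
  · rw [MonoidHom.finsetProd_apply, Finset.prod_eq_single i]
    · exact hχ i
    · intro j _ hji
      rw [MonoidHom.comp_apply, hkill j i hji _ (hv1 i), map_one]
    · exact fun h => absurd (Finset.mem_univ i) h
  · rw [MonoidHom.finsetProd_apply]
    refine Finset.prod_eq_one fun i _ => ?_
    have hwi : Fixed (e i : Subgroup G) w := hw.anti (hsCi i).1.le
    simp only [MonoidHom.comp_apply, ψ, MonoidHom.mul_apply, MonoidHom.pow_apply,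
      MonoidHom.inv_apply, normMap_of_fixed _ hwi, normMap_of_fixed _ hw, ← pow_mul,
      ← card_maxIn hB (hsCi i), mul_inv_cancel, map_one]

end Vale.Agent.P240.Modular
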