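import Vale.Agent.P240.Core
import Vale.Agent.P240.Modular.Theta

/-!
# The join lemma over an arbitrary field

If `V` is an abelian normal subgroup of order prime to `p`, `B` is an elementary abelian subgroup
of `G/V` acting faithfully on `V` and the poset of elementary abelian subgroups properly above `B`
is not acyclic, then neither is `A_p(G)`.
-/

set_option linter.unusedSectionVars false

open scoped Classical
open IsMulCommutative

noncomputable section

namespace Vale.Agent.P240.Modular

variable {p : ℕ} [hp : Fact p.Prime] {G : Type*} [Group G] [Finite G]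
  {V : Subgroup G} [V.Normal] [IsMulCommutative V]

variable {k : Type*} [Field k]

/-- The projection onto the `θ`-isotypic part of the chain complex, scaled by `|V|`. -/
def eTh (θ : V →* kˣ) : (Finset (Subgroup G) →₀ k) →ₗ[k] (Finset (Subgroup G) →₀ k) :=
  letI : Fintype V := Fintype.ofFinite V
  ∑ v : V, (((θ v)⁻¹ : kˣ) : k) • push k (fun F => cj (v : G) F)

theorem eTh_apply (θ : V →* kˣ) [Fintype V] (x : Finset (Subgroup G) →₀ k) :
    eTh θ x = ∑ v : V, (((θ v)⁻¹ : kˣ) : k) • push k (fun F => cj (v : G) F) x := by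
  unfold eTh
  simp only [LinearMap.sum_apply, LinearMap.smul_apply]
  exact Finset.sum_congr (Finset.ext fun _ => by simp) fun _ _ => rfl

theorem eTh_push (θ : V →* kˣ) (u : V) (x : Finset (Subgroup G) →₀ k) :
    eTh θ (push k (fun F => cj (u : G) F) x) = (θ u : k) • eTh θ x := by
  let : Fintype V := Fintype.ofFinite V
  have hcomp : ∀ v : V, push k (fun F => cj (v : G) F) (push k (fun F => cj (u : G) F) x) =
      push k (fun F => cj ((v * u : V) : G) F) x := by
    intro v
    induction x using Finsupp.induction_linear with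
    | zero => simp
    | add a b ha hb => simp only [map_add, ha, hb]
    | single s c =>
      simp only [push_single, Finset.image_image, Function.comp_def, Subgroup.coe_mul, cj_mul]
  rw [eTh_apply, eTh_apply, Finset.smul_sum]
  refine Fintype.sum_equiv (Equiv.mulRight u) _ _ fun v => ?_
  rw [hcomp, smul_smul, Equiv.coe_mulRight]
  congr 1
  rw [← Units.val_mul]
  congr 1
  rw [map_mul, mul_inv_rev, ← mul_assoc, mul_inv_cancel, one_mul]

theorem bd_eTh (θ : V →* kˣ) {U : Set (Subgroup G)} {m : ℕ} {x : Finset (Subgroup G) →₀ k}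
    (hx : x ∈ CC k U m) : bd k (Subgroup G) (eTh θ x) = eTh θ (bd k (Subgroup G) x) := by
  let : Fintype V := Fintype.ofFinite V
  rw [eTh_apply, eTh_apply, map_sum]
  refine Finset.sum_congr rfl fun v _ => ?_
  rw [map_smul, push_bd (fun a _ b _ h => (cj (v : G)).strictMono h) hx]

theorem eTh_mem (θ : V →* kˣ) {U : Set (Subgroup G)} (hU : ∀ (v : V), ∀ F ∈ U, cj (v : G) F ∈ U)
    {m : ℕ} {x : Finset (Subgroup G) →₀ k} (hx : x ∈ CC k U m) : eTh θ x ∈ CC k U m := by
  let : Fintype V := Fintype.ofFinite V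
  rw [eTh_apply]
  exact Submodule.sum_mem _ fun v _ => Submodule.smul_mem _ _
    (push_mem_CC (fun a _ b _ h => (cj (v : G)).strictMono h) (fun F hF => hU v F hF) hx)

theorem eTh_single_eq_zero (θ : V →* kˣ) {σ : Finset (Subgroup G)} {u : V}
    (hu : ∀ F ∈ σ, Fixed F u) (hne : θ u ≠ 1) (c : k) : eTh θ (Finsupp.single σ c) = 0 := by
  have e := eTh_push θ u (Finsupp.single σ c)
  have hfix : σ.image (fun F => cj (u : G) F) = σ :=
    (Finset.image_congr (g := id) fun F hF => cj_eq_of_fixed (hu F hF)).trans Finset.image_id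
  rw [push_single, hfix] at e
  have h2 : ((θ u : k) - 1) • eTh θ (Finsupp.single σ c) = 0 := by
    rw [sub_smul, one_smul, ← e, sub_self]
  refine (smul_eq_zero.1 h2).resolve_left ?_
  rw [sub_eq_zero]
  exact fun h => hne (Units.ext h)

theorem eTh_eq_zero (θ : V →* kˣ) {x : Finset (Subgroup G) →₀ k}
    (h : ∀ σ ∈ x.support, ∃ u : V, (∀ F ∈ σ, Fixed F u) ∧ θ u ≠ 1) : eTh θ x = 0 := by
  rw [← Finsupp.sum_single x, map_finsuppSum]
  refine Finset.sum_eq_zero fun σ hσ => ?_
  obtain ⟨u, hu, hne⟩ := h σ hσ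
  exact eTh_single_eq_zero θ hu hne _

/-- The kernel of `eTh` on the chains inside one elementary abelian subgroup. -/
theorem bad_of_eTh_eq_zero (hV : (Nat.card V).Coprime p) (hk : (Nat.card V : k) ≠ 0) (θ : V →* kˣ) {L : Subgroup G}
    (hL : IsElem p L) {m : ℕ} {x : Finset (Subgroup G) →₀ k} (hx : x ∈ CC k (Below L) m)
    (h0 : eTh θ x = 0) {σ : Finset (Subgroup G)} (hσ : σ ∈ x.support) :
    ∃ u : V, (∀ F ∈ σ, Fixed F u) ∧ θ u ≠ 1 := by
  by_contra hne
  push Not at hne
  let : Fintype V := Fintype.ofFinite V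
  let : Fintype (Subgroup G) := Fintype.ofFinite _
  have hchain := (Finsupp.mem_supported k x).1 hx
  set S := (Finset.univ : Finset V).filter (fun v => ∀ F ∈ σ, Fixed F v) with hS
  have hval : eTh θ x σ = (S.card : k) * x σ := by
    rw [eTh_apply, Finsupp.finsetSum_apply, Finset.card_eq_sum_ones, Nat.cast_sum,
      Finset.sum_mul, hS, Finset.sum_filter]
    refine Finset.sum_congr rfl fun v _ => ?_
    rw [Finsupp.smul_apply, smul_eq_mul, push, Finsupp.lmapDomain_apply, Finsupp.mapDomain,
      Finsupp.sum_apply, Finsupp.sum, Finset.sum_eq_single σ]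
    · by_cases hv : ∀ F ∈ σ, Fixed F v
      · have hfix : σ.image (fun F => cj (v : G) F) = σ :=
          (Finset.image_congr (g := id) fun F hF => cj_eq_of_fixed (hv F hF)).trans
            Finset.image_id
        rw [if_pos hv, hne v hv, hfix]
        simp
      · rw [if_neg hv, Finsupp.single_eq_of_ne, mul_zero]
        intro e
        refine hv fun F hF => fixed_of_cj_eq hV (hL.mono (((hchain hσ).2.1 hF).2)) ?_
        exact fixed_pointwise (g := cj (v : G)) (hchain hσ).1 e.symm hF
    · intro σ' hσ' hne'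
      rw [Finsupp.single_eq_of_ne]
      intro e
      apply hne'
      have hmap : ∀ F : Subgroup G, (cj (v : G) F).map (QuotientGroup.mk' V) =
          F.map (QuotientGroup.mk' V) := map_cj_mem V v.2
      have hinj : Set.InjOn (fun F : Subgroup G => F.map (QuotientGroup.mk' V))
          {F | F ≤ L} := fun a ha b hb h =>
        le_antisymm (le_of_map_le_mk hV hL.isPGroup ha hb h.le)
          (le_of_map_le_mk hV hL.isPGroup hb ha h.ge)
      ext F
      constructor
      · intro hF
        obtain ⟨F', hF', he⟩ : ∃ F' ∈ σ, F' = cj (v : G) F :=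
          ⟨_, e ▸ Finset.mem_image_of_mem _ hF, rfl⟩
        rwa [hinj ((hchain hσ').2.1 hF).2 ((hchain hσ).2.1 hF').2
          (by rw [he]; exact (hmap F).symm)]
      · intro hF
        obtain ⟨F', hF', he⟩ := Finset.mem_image.1 (e ▸ hF)
        rwa [hinj ((hchain hσ).2.1 hF).2 ((hchain hσ').2.1 hF').2
          (by rw [← he]; exact hmap F')]
    · intro h
      rw [Finsupp.notMem_support_iff.1 h]
      simp
  rw [h0, Finsupp.zero_apply, zero_eq_mul] at hval
  rcases hval with h | h
  · have hdvd : S.card ∣ Nat.card V := by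
      let H : Subgroup V :=
        { carrier := {v | ∀ F ∈ σ, Fixed F v}
          one_mem' := fun F _ g _ => by simp
          mul_mem' := fun {a b} ha hb F hF g hg => by
            have e1 : Commute g (a : G) := ha F hF g hg
            have e2 : Commute g (b : G) := hb F hF g hg
            exact (e1.mul_right e2).eq
          inv_mem' := fun {a} ha F hF g hg => by
            have e1 : Commute g (a : G) := ha F hF g hg
            exact e1.inv_right.eq }
      have e : Nat.card H = S.card := by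
        rw [← Nat.card_eq_finsetCard]
        exact Nat.card_congr (Equiv.subtypeEquivRight fun v => by simp only [hS, Finset.mem_filter, Finset.mem_univ, true_and]; exact Iff.rfl)
      exact e ▸ H.card_subgroup_dvd_card
    obtain ⟨c, hc⟩ := hdvd
    exact hk (by rw [hc, Nat.cast_mul, h, zero_mul])
  · exact Finsupp.mem_support_iff.1 hσ h

/-- The carrier extension step. -/
theorem exists_fill (hV : (Nat.card V).Coprime p) (hk : (Nat.card V : k) ≠ 0) (θ : V →* kˣ) {L : Subgroup G}
    (hL : IsElem p L) (hL1 : L ≠ ⊥) (hθ : ∀ w : V, Fixed L w → θ w = 1) {a : ℕ}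
    (hcard : p ^ a < Nat.card L) {y : Finset (Subgroup G) →₀ k} (hy : y ∈ CC k (Below L) a)
    (h0 : eTh θ (bd k (Subgroup G) y) = 0) :
    ∃ x ∈ CC k (Below L) (a + 1), bd k (Subgroup G) (eTh θ x) = eTh θ y := by
  set Ks := (Set.toFinite {K | MaxIn K L ∧ ∃ w : V, Fixed K w ∧ θ w ≠ 1}).toFinset with hKs
  obtain ⟨u, hu, hbu, heu⟩ : ∃ u, u ∈ CC k (Below L) a ∧
      bd k (Subgroup G) u = bd k (Subgroup G) y ∧ eTh θ u = 0 := by
    rcases a with _ | i
    · exact ⟨0, zero_mem _, by rw [map_zero, bd_CC_zero hy], map_zero _⟩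
    by_cases hz : bd k (Subgroup G) y = 0
    · exact ⟨0, zero_mem _, by rw [map_zero, hz], map_zero _⟩
    have hby := bd_mem_CC hy
    have hfam : ∀ σ ∈ (bd k (Subgroup G) y).support,
        Ks.Nonempty ∧ ↑σ ⊆ Arr Ks := by
      intro σ hσ
      obtain ⟨v, hv, hvne⟩ := bad_of_eTh_eq_zero hV hk θ hL hby h0 hσ
      have hc := (Finsupp.mem_supported k _).1 hby hσ
      have key : ∀ F, F ≤ L → Fixed F v → ∃ K ∈ Ks, F ≤ K := by
        intro F hF hfix
        obtain ⟨K, hFK, hK, w, hw, hwne⟩ := exists_maxIn hV hL hF θ hθ hfix hvne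
        exact ⟨K, (Set.Finite.mem_toFinset _).2 ⟨hK, w, hw, hwne⟩, hFK⟩
      refine ⟨?_, fun F hF => ⟨(hc.2.1 hF).1, key F (hc.2.1 hF).2 (hv F hF)⟩⟩
      obtain ⟨K, hK, -⟩ := key ⊥ bot_le
        (fun g hg => by rw [Subgroup.mem_bot.1 hg, one_mul, mul_one])
      exact ⟨K, hK⟩
    obtain ⟨σ, hσ⟩ := Finsupp.support_nonempty_iff.2 hz
    have hmemArr : bd k (Subgroup G) y ∈ CC k (Arr Ks) i := by
      rw [CC, Finsupp.mem_supported]
      intro s hs
      have hc := (Finsupp.mem_supported k _).1 hby hs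
      exact ⟨hc.1, (hfam s hs).2, hc.2.2⟩
    have hKmax : ∀ K ∈ Ks, MaxIn K L := fun K hK => ((Set.Finite.mem_toFinset _).1 hK).1
    obtain ⟨u, hu, hbu⟩ := van_arr k hL Ks hKmax (hfam σ hσ).1 hcard _ hmemArr (bd_bd hy)
    refine ⟨u, CC_mono ?_ hu, hbu, eTh_eq_zero θ fun s hs => ?_⟩
    · rintro F ⟨hF0, K, hK, hFK⟩; exact ⟨hF0, hFK.trans (hKmax K hK).1.le⟩
    · have hc := (Finsupp.mem_supported k _).1 hu hs
      obtain ⟨T, hT, hmax⟩ := s.exists_maximal (Finset.card_pos.1 (by rw [hc.2.2]; omega))
      obtain ⟨-, K, hK, hTK⟩ := hc.2.1 hT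
      obtain ⟨-, w, hw, hwne⟩ := (Set.Finite.mem_toFinset _).1 hK
      refine ⟨w, fun F hF => hw.anti (le_trans ?_ hTK), hwne⟩
      by_cases hFT : F = T
      · exact le_of_eq hFT
      rcases hc.1 hF hT hFT with h | h
      · exact h
      · exact hmax hF h
  have hyu : y - u ∈ CC k (Below L) a := sub_mem hy hu
  refine ⟨cone k L (y - u), cone_mem_CC hyu ⟨hL1, le_rfl⟩ (fun F hF => hF.2), ?_⟩
  have h := cone_homotopy hyu (t := L) (fun F hF => hF.2)
  rw [map_sub (bd k (Subgroup G)) y u, hbu, sub_self, map_zero, add_zero] at h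
  rw [bd_eTh θ (cone_mem_CC hyu (⟨hL1, le_rfl⟩ : L ∈ Below L) (fun F hF => hF.2)), h, map_sub,
    heu, sub_zero]

/-- The weight of a conjugate of `B`. -/
def wt (B : Subgroup G) (θ : V →* kˣ) (F : Subgroup G) : k :=
  if h : ∃ v : V, cj (v : G) B = F then ((θ h.choose : kˣ) : k) else 0

theorem wt_cj_self (hV : (Nat.card V).Coprime p) {B : Subgroup G} (hB : IsElem p B)
    {θ : V →* kˣ} (hθ : ∀ w : V, Fixed B w → θ w = 1) (u : V) :
    wt B θ (cj (u : G) B) = (θ u : k) := by
  have h : ∃ v : V, cj (v : G) B = cj (u : G) B := ⟨u, rfl⟩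
  rw [wt, dif_pos h]
  congr 1
  have e := h.choose_spec
  have h1 : cj ((u⁻¹ * h.choose : V) : G) B = B := by
    rw [Subgroup.coe_mul, cj_mul, e, ← cj_mul, Subgroup.coe_inv, inv_mul_cancel, cj_one]
  have h2 := hθ _ (fixed_of_cj_eq hV hB h1)
  rwa [map_mul, map_inv, inv_mul_eq_one, eq_comm] at h2

theorem wt_cj (hV : (Nat.card V).Coprime p) {B : Subgroup G} (hB : IsElem p B)
    {θ : V →* kˣ} (hθ : ∀ w : V, Fixed B w → θ w = 1) (u : V) (F : Subgroup G) :
    wt B θ (cj (u : G) F) = (θ u : k) * wt B θ F := by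
  by_cases h : ∃ v : V, cj (v : G) B = F
  · obtain ⟨v, rfl⟩ := h
    rw [← cj_mul, ← Subgroup.coe_mul, wt_cj_self hV hB hθ, wt_cj_self hV hB hθ, map_mul,
      Units.val_mul]
  · have h' : ¬ ∃ v : V, cj (v : G) B = cj (u : G) F := by
      rintro ⟨v, hv⟩
      refine h ⟨u⁻¹ * v, ?_⟩
      rw [Subgroup.coe_mul, cj_mul, hv, ← cj_mul, Subgroup.coe_inv, inv_mul_cancel, cj_one]
    rw [wt, wt, dif_neg h, dif_neg h', mul_zero]

/-- The projection `π` of a chain of `G` to the chain of the link above `B`. -/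
def piC (B : Subgroup G) (θ : V →* kˣ) (f0 : Finset (Subgroup (G ⧸ V))) :
    (Finset (Subgroup G) →₀ k) →ₗ[k] (Finset (Subgroup (G ⧸ V)) →₀ k) :=
  Finsupp.linearCombination k fun σ =>
    if (σ.image (fun F => F.map (QuotientGroup.mk' V))).filter
          (fun x => x ≤ B.map (QuotientGroup.mk' V)) = f0 ∧
        ∀ x ∈ σ.image (fun F => F.map (QuotientGroup.mk' V)),
          ¬ x ≤ B.map (QuotientGroup.mk' V) → B.map (QuotientGroup.mk' V) < x
    then (∏ F ∈ σ.filter (fun F => F.map (QuotientGroup.mk' V) = B.map (QuotientGroup.mk' V)),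
          wt B θ F) •
      Finsupp.single ((σ.image (fun F => F.map (QuotientGroup.mk' V))).filter
        (fun x => ¬ x ≤ B.map (QuotientGroup.mk' V))) 1
    else 0

theorem piC_chainMap (hV : (Nat.card V).Coprime p) {B : Subgroup G} (hB : IsElem p B)
    {θ : V →* kˣ} {f0 : Finset (Subgroup (G ⧸ V))} {n : ℕ} (hn : f0.card = n)
    (hBn : Nat.card B ≤ p ^ n) (htop : f0.Nonempty → B.map (QuotientGroup.mk' V) ∈ f0)
    {m : ℕ} {σ : Finset (Subgroup G)} (hσ : σ ∈ chainSets (elemAbelianSubgroups p G) m) :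
    piC B θ f0 (bd k (Subgroup G) (Finsupp.single σ 1)) =
      (-1 : k) ^ n • bd k (Subgroup (G ⧸ V)) (piC B θ f0 (Finsupp.single σ 1)) := by
  set f := QuotientGroup.mk' V with hf
  set Bb := B.map f with hBb
  set mp : Subgroup G → Subgroup (G ⧸ V) := fun F => F.map f with hmp
  have hmono : ∀ a ∈ σ, ∀ b ∈ σ, a < b → mp a < mp b :=
    fun a _ b hb h => map_lt_map_mk hV (hσ.2.1 hb).2.isPGroup h
  have hinj := injOn_of_strictMono hσ.1 hmono
  have hchim := isChain_image hσ.1 hmono
  have hne : ∀ a ∈ σ, mp a ≠ ⊥ := fun a ha => (map_mem_elem hV (hσ.2.1 ha)).1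
  have himg : ∀ a ∈ σ, (σ.erase a).image mp = (σ.image mp).erase (mp a) := by
    intro a ha
    ext x
    simp only [Finset.mem_image, Finset.mem_erase]
    constructor
    · rintro ⟨b, ⟨hne', hb⟩, rfl⟩; exact ⟨fun e => hne' (hinj hb ha e), b, hb, rfl⟩
    · rintro ⟨hne', b, hb, rfl⟩; exact ⟨b, ⟨fun e => hne' (by rw [e]), hb⟩, rfl⟩
  have hwidth : ∀ a ∈ σ, mp a ≤ Bb →
      (σ.image mp).filter (fun x => x ≤ Bb) ≠ insert (mp a) f0 ∨ mp a ∈ f0 := by
    intro a ha hle
    by_contra h
    push Not at h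
    obtain ⟨h1, h2⟩ := h
    have hc := card_chain (C := ⊥) (T := Bb) (τ := insert (mp a) f0) (hB.map f) bot_le
      (hchim.mono (by rw [← h1]; intro x hx; exact (Finset.mem_filter.1 hx).1))
      (fun x hx => by
        rw [← h1, Finset.mem_filter, Finset.mem_image] at hx
        obtain ⟨⟨b, hb, rfl⟩, hxB⟩ := hx
        exact ⟨bot_lt_iff_ne_bot.2 (hne b hb), hxB⟩)
    rw [Finset.card_insert_of_notMem h2, hn, Subgroup.card_bot, one_mul,
      card_map_mk hV hB.isPGroup] at hc
    have : p ^ n < p ^ (n + 1) := Nat.pow_lt_pow_right hp.out.one_lt (Nat.lt_succ_self n)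
    omega
  set cond : Finset (Subgroup G) → Prop := fun s =>
    (s.image mp).filter (fun x => x ≤ Bb) = f0 ∧ ∀ x ∈ s.image mp, ¬ x ≤ Bb → Bb < x with hcond
  set prd : Finset (Subgroup G) → k := fun s =>
    ∏ F ∈ s.filter (fun F => mp F = Bb), wt B θ F with hprd
  set high : Finset (Subgroup G) → Finset (Subgroup (G ⧸ V)) := fun s =>
    (s.image mp).filter (fun x => ¬ x ≤ Bb) with hhigh
  have hpi : ∀ s c, piC B θ f0 (Finsupp.single s c) =
      if cond s then Finsupp.single (high s) (c * prd s) else 0 := by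
    intro s c
    rw [piC, Finsupp.linearCombination_single]
    by_cases h : cond s
    · rw [if_pos h, if_pos h, Finsupp.smul_single, Finsupp.smul_single, smul_eq_mul,
        smul_eq_mul, mul_one]
    · rw [if_neg h, if_neg h, smul_zero]
  have hlow : ∀ a ∈ σ, ((σ.erase a).image mp).filter (fun x => x ≤ Bb) =
      ((σ.image mp).filter (fun x => x ≤ Bb)).erase (mp a) := fun a ha => by
    rw [himg a ha, Finset.filter_erase]
  rw [bd_single, map_sum]
  simp only [one_mul, hpi]
  by_cases hc : cond σ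
  · obtain ⟨hc1, hc2⟩ := hc
    rw [if_pos ⟨hc1, hc2⟩, bd_single, Finset.smul_sum]
    have hzero : ∀ a ∈ σ, mp a ≤ Bb → ¬ cond (σ.erase a) := by
      intro a ha hle h
      have := h.1
      rw [hlow a ha, hc1] at this
      have hmem : mp a ∈ f0 := hc1 ▸ Finset.mem_filter.2 ⟨Finset.mem_image_of_mem _ ha, hle⟩
      exact Finset.notMem_erase (mp a) f0 (by rw [this]; exact hmem)
    rw [← Finset.sum_filter_add_sum_filter_not σ (fun a => mp a ≤ Bb),
      Finset.sum_eq_zero (fun a ha => if_neg (hzero a (Finset.mem_filter.1 ha).1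
        (Finset.mem_filter.1 ha).2)), zero_add]
    refine Finset.sum_bij (fun a _ => mp a) ?_ ?_ ?_ ?_
    · intro a ha
      rw [Finset.mem_filter] at ha
      exact Finset.mem_filter.2 ⟨Finset.mem_image_of_mem _ ha.1, ha.2⟩
    · intro a ha b hb e
      exact hinj (Finset.mem_filter.1 ha).1 (Finset.mem_filter.1 hb).1 e
    · intro x hx
      obtain ⟨hx1, hx2⟩ := Finset.mem_filter.1 hx
      obtain ⟨a, ha, rfl⟩ := Finset.mem_image.1 hx1
      exact ⟨a, Finset.mem_filter.2 ⟨ha, hx2⟩, rfl⟩
    · intro a ha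
      obtain ⟨ha, hna⟩ := Finset.mem_filter.1 ha
      have hlow' : ((σ.erase a).image mp).filter (fun x => x ≤ Bb) = f0 := by
        rw [hlow a ha, hc1, Finset.erase_eq_of_notMem]
        intro h
        rw [← hc1] at h
        exact hna (Finset.mem_filter.1 h).2
      have hcond' : cond (σ.erase a) := ⟨hlow', fun x hx => hc2 x (by
        rw [himg a ha] at hx; exact Finset.mem_of_mem_erase hx)⟩
      rw [if_pos hcond', Finsupp.smul_single, smul_eq_mul]
      have e1 : high (σ.erase a) = (high σ).erase (mp a) := by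
        rw [hhigh]; simp only [himg a ha, Finset.filter_erase]
      have e2 : prd (σ.erase a) = prd σ := by
        simp only [hprd]
        rw [Finset.filter_erase, Finset.erase_eq_of_notMem]
        exact fun h => hna (Finset.mem_filter.1 h).2.le
      have e3 : below σ a = n + below (high σ) (mp a) := by
        rw [← below_image hσ.1 hmono ha, below, below, ← hn, ← hc1,
          ← Finset.card_union_of_disjoint]
        · congr 1
          ext x
          simp only [hhigh, Finset.mem_union, Finset.mem_filter]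
          constructor
          · rintro ⟨hx, hlt⟩
            by_cases h : x ≤ Bb
            · exact Or.inl ⟨hx, h⟩
            · exact Or.inr ⟨⟨hx, h⟩, hlt⟩
          · rintro (⟨hx, hle⟩ | ⟨⟨hx, -⟩, hlt⟩)
            · exact ⟨hx, lt_of_le_of_lt hle (hc2 _ (Finset.mem_image_of_mem _ ha) hna)⟩
            · exact ⟨hx, hlt⟩
        · rw [Finset.disjoint_left]
          intro x hx hx'
          simp only [hhigh, Finset.mem_filter] at hx hx'
          exact hx'.1.2 hx.2
      rw [e1, e2, e3, pow_add]
      congr 1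
      ring
  · rw [if_neg hc, map_zero, smul_zero]
    refine Finset.sum_eq_zero fun a ha => if_neg fun h => ?_
    obtain ⟨h1, h2⟩ := h
    by_cases hle : mp a ≤ Bb
    · have hlow2 : (σ.image mp).filter (fun x => x ≤ Bb) = insert (mp a) f0 := by
        rw [← h1, hlow a ha, Finset.insert_erase]
        exact Finset.mem_filter.2 ⟨Finset.mem_image_of_mem _ ha, hle⟩
      rcases hwidth a ha hle with hw | hw
      · exact hw hlow2
      · have := h1
        rw [hlow a ha] at this
        exact Finset.notMem_erase (mp a) _ (this.symm ▸ hw)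
    · refine hc ⟨?_, fun x hx hxle => ?_⟩
      · rw [← h1, hlow a ha, Finset.erase_eq_of_notMem]
        exact fun h => hle (Finset.mem_filter.1 h).2
      · by_cases hxa : x = mp a
        · subst hxa
          rcases f0.eq_empty_or_nonempty with he | hne0
          · have hB1 : B = ⊥ := Subgroup.eq_bot_of_card_le _ (by
              simpa [← hn, he] using hBn)
            rw [hBb, hB1, Subgroup.map_bot]
            exact bot_lt_iff_ne_bot.2 (hne a ha)
          · have hBmem : Bb ∈ ((σ.erase a).image mp).filter (fun x => x ≤ Bb) := by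
              rw [h1]; exact htop hne0
            have hBim : Bb ∈ σ.image mp :=
              Finset.image_subset_image (Finset.erase_subset a σ) (Finset.mem_filter.1 hBmem).1
            have hne2 : Bb ≠ mp a := fun e => hle (le_of_eq e.symm)
            exact lt_of_le_of_ne
              ((hchim hBim (Finset.mem_image_of_mem _ ha) hne2).resolve_right hle) hne2
        · exact h2 x (by rw [himg a ha]; exact Finset.mem_erase.2 ⟨hxa, hx⟩) hxle

theorem piC_mem (hV : (Nat.card V).Coprime p) {B : Subgroup G} {θ : V →* kˣ}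
    {f0 : Finset (Subgroup (G ⧸ V))} {U : Set (Subgroup G)}
    (hU : U ⊆ elemAbelianSubgroups p G) {W : Set (Subgroup (G ⧸ V))}
    (hW : ∀ F ∈ U, B.map (QuotientGroup.mk' V) < F.map (QuotientGroup.mk' V) →
      F.map (QuotientGroup.mk' V) ∈ W)
    {m : ℕ} {x : Finset (Subgroup G) →₀ k} (hx : x ∈ CC k U m) :
    piC B θ f0 x ∈ CC k W (m - f0.card) := by
  refine CC_induction (P := fun x => piC B θ f0 x ∈ CC k W (m - f0.card)) hx (by simp)
    (fun x y a b => by rw [map_add]; exact add_mem a b) (fun σ hσ c => ?_)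
  rw [piC, Finsupp.linearCombination_single]
  split_ifs with h
  · refine Submodule.smul_mem _ _ (Submodule.smul_mem _ _ (single_mem_CC ⟨?_, ?_, ?_⟩ 1))
    · refine (isChain_image hσ.1 fun a _ b hb h' =>
        map_lt_map_mk hV (hU (hσ.2.1 hb)).2.isPGroup h').mono ?_
      intro y hy; exact (Finset.mem_filter.1 hy).1
    · intro y hy
      obtain ⟨hy1, hy2⟩ := Finset.mem_filter.1 hy
      have h2 := h.2 y hy1 hy2
      obtain ⟨F, hF, rfl⟩ := Finset.mem_image.1 hy1
      exact hW F (hσ.2.1 hF) h2
    · have hsplit := Finset.card_filter_add_card_filter_not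
        (s := σ.image (fun F : Subgroup G => F.map (QuotientGroup.mk' V)))
        (fun x => x ≤ B.map (QuotientGroup.mk' V))
      rw [h.1, Finset.card_image_of_injOn (injOn_of_strictMono hσ.1 fun a _ b hb h' =>
        map_lt_map_mk hV (hU (hσ.2.1 hb)).2.isPGroup h'), hσ.2.2] at hsplit
      omega
  · simp

theorem piC_cj (hV : (Nat.card V).Coprime p) {B : Subgroup G} (hB : IsElem p B)
    {θ : V →* kˣ} (hθ : ∀ w : V, Fixed B w → θ w = 1) {f0 : Finset (Subgroup (G ⧸ V))} {n : ℕ}
    (hn : f0.card = n) (hBn : Nat.card B ≤ p ^ n)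
    (htop : f0.Nonempty → B.map (QuotientGroup.mk' V) ∈ f0) (u : V)
    {m : ℕ} {σ : Finset (Subgroup G)} (hσ : σ ∈ chainSets (elemAbelianSubgroups p G) m) (c : k) :
    piC B θ f0 (Finsupp.single (σ.image (fun F => cj (u : G) F)) c) =
      (θ u : k) • piC B θ f0 (Finsupp.single σ c) := by
  set f := QuotientGroup.mk' V with hf
  have him : (σ.image (fun F => cj (u : G) F)).image (fun F => F.map f) =
      σ.image (fun F => F.map f) := by
    rw [Finset.image_image]
    exact Finset.image_congr fun F _ => map_cj_mem V u.2 F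
  rw [piC, Finsupp.linearCombination_single, Finsupp.linearCombination_single, him]
  split_ifs with h
  · suffices key : (∏ F ∈ (σ.image (fun F => cj (u : G) F)).filter
        (fun F => F.map f = B.map f), wt B θ F) =
        (θ u : k) * ∏ F ∈ σ.filter (fun F => F.map f = B.map f), wt B θ F by
      rw [key, smul_smul, smul_smul, smul_smul]
      congr 1
      ring
    have hfil : (σ.image (fun F => cj (u : G) F)).filter (fun F => F.map f = B.map f) =
        (σ.filter (fun F => F.map f = B.map f)).image (fun F => cj (u : G) F) := by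
      rw [Finset.filter_image]
      congr 1
      exact Finset.filter_congr fun F _ => by rw [hf, map_cj_mem V u.2 F]
    rw [hfil, Finset.prod_image ((cj (u : G)).injective.injOn),
      Finset.prod_congr rfl (fun F _ => wt_cj hV hB hθ u F), Finset.prod_mul_distrib,
      Finset.prod_const]
    congr 1
    have hmono : ∀ a ∈ σ, ∀ b ∈ σ, a < b → a.map f < b.map f :=
      fun a _ b hb h => map_lt_map_mk hV (hσ.2.1 hb).2.isPGroup h
    rcases f0.eq_empty_or_nonempty with he | hne
    · have hB1 : B = ⊥ := Subgroup.eq_bot_of_card_le _ (by simpa [← hn, he] using hBn)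
      have : θ u = 1 := hθ u fun g hg => by
        rw [hB1, Subgroup.mem_bot] at hg; rw [hg, one_mul, mul_one]
      rw [this, Units.val_one, one_pow]
    · have hmem : B.map f ∈ σ.image (fun F => F.map f) := by
        have := htop hne
        rw [← h.1] at this
        exact (Finset.mem_filter.1 this).1
      obtain ⟨F0, hF0, hF0'⟩ := Finset.mem_image.1 hmem
      have : σ.filter (fun F => F.map f = B.map f) = {F0} := by
        ext F
        simp only [Finset.mem_filter, Finset.mem_singleton]
        exact ⟨fun ⟨h1, h2⟩ => injOn_of_strictMono hσ.1 hmono h1 hF0 (h2.trans hF0'.symm),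
          fun e => e ▸ ⟨hF0, hF0'⟩⟩
      rw [this, Finset.card_singleton, pow_one]
  · simp

end Vale.Agent.P240.Modular
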