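import Vale.Agent.P240.Transfer
import Vale.Agent.P240.Descent

/-!
# Moving homology between coefficient fields, central quotients and subgroups
-/

set_option linter.unusedSectionVars false

open scoped Classical

noncomputable section

namespace Vale.Agent.P240.Modular

/-- Nonzero homology over an extension field gives nonzero homology over the base field. -/
theorem hasReducedHomology_descend (F : Type*) {K : Type*} [Field F] [Field K] [Algebra F K]
    {α : Type*} [PartialOrder α] {U : Set α} (h : HasReducedHomology K U) :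
    HasReducedHomology F U := by
  by_contra hno
  rw [hasReducedHomology_iff] at hno h
  push Not at hno
  obtain ⟨n, hn⟩ := h
  apply hn
  intro z hz hz0
  let b := Module.Basis.ofVectorSpace F K
  let I := z.support.biUnion fun s => (b.repr (z s)).support
  let f : _ → (K →+ F) := fun i => ((Finsupp.lapply i).comp b.repr.toLinearMap).toAddMonoidHom
  let g : _ → (F →+ K) := fun i => (LinearMap.toSpanSingleton F K (b i)).toAddMonoidHom
  have hw : ∀ i, ∃ w ∈ CC F U (n + 1), bd F α w = coef (f i) z := fun i =>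
    hno n _ (coef_mem _ hz) (by rw [bd_coef _ hz, hz0, map_zero])
  choose w hw1 hw2 using hw
  refine ⟨∑ i ∈ I, coef (g i) (w i), Submodule.sum_mem _ fun i _ => coef_mem _ (hw1 i), ?_⟩
  rw [map_sum, Finset.sum_congr rfl fun i _ => by rw [bd_coef (g i) (hw1 i), hw2 i]]
  ext s
  rw [Finsupp.finsetSum_apply]
  simp only [coef_apply]
  show ∑ i ∈ I, (b.repr (z s) i) • b i = z s
  by_cases hs : z s = 0
  · simp [hs]
  · conv_rhs => rw [← b.linearCombination_repr (z s), Finsupp.linearCombination_apply]
    rw [Finsupp.sum]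
    refine (Finset.sum_subset (fun i hi => Finset.mem_biUnion.2
      ⟨s, Finsupp.mem_support_iff.2 hs, hi⟩) fun i _ hi => ?_).symm
    rw [Finsupp.notMem_support_iff.1 hi, zero_smul]

variable {k : Type*} [Field k] {p : ℕ} [Fact p.Prime] {G : Type*} [Group G] [Finite G]

/-- Nonzero homology survives over a field in which the order of the kernel is invertible. -/
theorem transfer (N : Subgroup G) [N.Normal] (hk : (Nat.card N : k) ≠ 0)
    (hN : (Nat.card N).Coprime p)
    (h : HasReducedHomology k (elemAbelianSubgroups p (G ⧸ N))) :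
    HasReducedHomology k (elemAbelianSubgroups p G) := by
  obtain ⟨n, z, hz, hz0, hzb⟩ := h
  set s : (Finset (Subgroup (G ⧸ N)) →₀ k) →ₗ[k] (Finset (Subgroup G) →₀ k) :=
    Finsupp.linearCombination k (lamChain k p N) with hs
  set pf := push k (fun E : Subgroup G => E.map (QuotientGroup.mk' N)) with hpf
  have hs1 : ∀ {m : ℕ} {c : Finset (Subgroup (G ⧸ N)) →₀ k},
      c ∈ CC k (elemAbelianSubgroups p (G ⧸ N)) m →
      s c ∈ CC k (elemAbelianSubgroups p G) m ∧
      bd k (Subgroup G) (s c) = s (bd k (Subgroup (G ⧸ N)) c) ∧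
      pf (s c) = (Nat.card N : k) • c := by
    intro m c hc
    refine CC_induction (P := fun c => s c ∈ CC k (elemAbelianSubgroups p G) m ∧
      bd k (Subgroup G) (s c) = s (bd k (Subgroup (G ⧸ N)) c) ∧
      pf (s c) = (Nat.card N : k) • c) hc (by simp) ?_ ?_
    · rintro x y ⟨x1, x2, x3⟩ ⟨y1, y2, y3⟩
      simp only [map_add, smul_add, x2, x3, y2, y3]
      exact ⟨add_mem x1 y1, trivial, trivial⟩
    · intro τ hτ a
      have e : s (Finsupp.single τ a) = a • lamChain k p N τ :=
        Finsupp.linearCombination_single k a τ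
      have e1 : Finsupp.single τ a = a • Finsupp.single τ (1 : k) := by simp
      refine ⟨e ▸ Submodule.smul_mem _ a (lamChain_mem N hN hτ), ?_, ?_⟩
      · rw [e, map_smul, bd_lamChain N hN hτ, ← map_smul, ← map_smul, ← e1]
      · rw [e, map_smul, hpf, push_lamChain N hN hτ, smul_comm, ← e1]
  obtain ⟨z1, z2, z3⟩ := hs1 hz
  refine ⟨n, s z, z1, by rw [z2, hz0, map_zero], fun w hw e => ?_⟩
  have hmono : ∀ a ∈ elemAbelianSubgroups p G, ∀ b ∈ elemAbelianSubgroups p G, a < b →
      a.map (QuotientGroup.mk' N) < b.map (QuotientGroup.mk' N) :=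
    fun a _ b hb h => map_lt_map_mk hN hb.2.isPGroup h
  have e2 := congrArg pf e
  rw [z3, hpf, push_bd hmono hw] at e2
  refine hzb ((Nat.card N : k)⁻¹ • pf w) ?_ ?_
  · exact Submodule.smul_mem _ _
      (push_mem_CC hmono (fun E hE => map_mem_elem hN hE) hw)
  · rw [map_smul, hpf, e2, smul_smul, inv_mul_cancel₀ hk, one_smul]

/-- A central subgroup of order prime to `p` does not change the poset. -/
theorem transfer_central (Z : Subgroup G) [Z.Normal] (hZ : ∀ z ∈ Z, ∀ g : G, z * g = g * z)
    (hN : (Nat.card Z).Coprime p)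
    (h : HasReducedHomology k (elemAbelianSubgroups p (G ⧸ Z))) :
    HasReducedHomology k (elemAbelianSubgroups p G) := by
  obtain ⟨n, z, hz, hz0, hzb⟩ := h
  set π := fun E : Subgroup G => E.map (QuotientGroup.mk' Z) with hπ
  set s := fun T : Subgroup (G ⧸ Z) => someLift p Z T with hsdef
  have hmem : ∀ T ∈ elemAbelianSubgroups p (G ⧸ Z),
      s T ∈ elemAbelianSubgroups p G ∧ π (s T) = T := by
    intro T hT
    obtain ⟨h1, h2⟩ := someLift_spec Z hN hT.2
    refine ⟨⟨fun e => hT.1 ?_, h1⟩, h2⟩
    rw [← h2, show someLift p Z T = ⊥ from e, Subgroup.map_bot]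
  have hmonos : ∀ a ∈ elemAbelianSubgroups p (G ⧸ Z), ∀ b ∈ elemAbelianSubgroups p (G ⧸ Z),
      a < b → s a < s b := by
    intro a ha b hb hab
    obtain ⟨ha1, ha2⟩ := hmem a ha
    obtain ⟨hb1, hb2⟩ := hmem b hb
    have hb2' : a ≤ (s b).map (QuotientGroup.mk' Z) := le_of_le_of_eq hab.le hb2.symm
    obtain ⟨v, hv, -, e⟩ := lift_conj hN (P0 := ⊥)
      (hb1.2.mono (inf_le_left (b := a.comap (QuotientGroup.mk' Z)))) ha1.2 bot_le bot_le
      (by rw [map_inf_comap Z hb2']; exact ha2.symm)
    rw [cj_of_centralizes fun x _ => hZ v hv x] at e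
    refine lt_of_le_of_ne (e ▸ inf_le_left) fun he => hab.ne ?_
    rw [← ha2, ← hb2, he]
  have hmono : ∀ a ∈ elemAbelianSubgroups p G, ∀ b ∈ elemAbelianSubgroups p G, a < b →
      π a < π b := fun a _ b hb h => map_lt_map_mk hN hb.2.isPGroup h
  have hback : push k π (push k s z) = z := by
    refine CC_induction (P := fun z => push k π (push k s z) = z) hz (by simp)
      (fun x y hx hy => by rw [map_add, map_add, hx, hy]) (fun t ht c => ?_)
    rw [push_single, push_single, Finset.image_image]
    congr 1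
    exact (Finset.image_congr (g := id) fun T hT => (hmem T (ht.2.1 hT)).2).trans Finset.image_id
  refine ⟨n, push k s z, push_mem_CC hmonos (fun T hT => (hmem T hT).1) hz,
    by rw [← push_bd hmonos hz, hz0, map_zero], fun w hw e => ?_⟩
  refine hzb (push k π w) (push_mem_CC hmono (fun E hE => map_mem_elem hN hE) hw) ?_
  rw [← push_bd hmono hw, e, hback]

/-- The poset of a subgroup inside that of the group. -/
theorem of_subgroup (C : Subgroup G) (h : HasReducedHomology k (elemAbelianSubgroups p C)) :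
    HasReducedHomology k {E : Subgroup G | E ∈ elemAbelianSubgroups p G ∧ E ≤ C} := by
  obtain ⟨n, z, hz, hz0, hzb⟩ := h
  set i := fun T : Subgroup C => T.map C.subtype with hi
  set b := fun E : Subgroup G => E.subgroupOf C with hb
  have hbi : ∀ T, b (i T) = T := fun T =>
    Subgroup.comap_map_eq_self_of_injective C.subtype_injective T
  have himono : ∀ a ∈ elemAbelianSubgroups p C, ∀ a' ∈ elemAbelianSubgroups p C, a < a' →
      i a < i a' := fun a _ a' _ h =>
    lt_of_le_of_ne (Subgroup.map_mono h.le) fun e => h.ne (Subgroup.map_injective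
      C.subtype_injective e)
  set U : Set (Subgroup G) := {E | E ∈ elemAbelianSubgroups p G ∧ E ≤ C} with hU
  have hbmono : ∀ a ∈ U, ∀ a' ∈ U, a < a' → b a < b a' := fun a ha a' ha' h =>
    lt_of_le_of_ne (Subgroup.comap_mono h.le) fun e => h.ne (by
      have := congrArg (Subgroup.map C.subtype) e
      rwa [hb, Subgroup.map_subgroupOf_eq_of_le ha.2, Subgroup.map_subgroupOf_eq_of_le ha'.2]
        at this)
  have hiU : ∀ T ∈ elemAbelianSubgroups p C, i T ∈ U := fun T hT =>
    ⟨⟨fun e => hT.1 ((Subgroup.map_eq_bot_iff_of_injective _ C.subtype_injective).1 e),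
      hT.2.map _⟩, Subgroup.map_subtype_le _⟩
  have hbU : ∀ E ∈ U, b E ∈ elemAbelianSubgroups p C := fun E hE =>
    ⟨fun e => hE.1.1 (by
      have := congrArg (Subgroup.map C.subtype) e
      rwa [hb, Subgroup.map_subgroupOf_eq_of_le hE.2, Subgroup.map_bot] at this),
      ⟨fun x hx y hy => Subtype.ext (hE.1.2.1 _ hx _ hy),
        fun x hx => Subtype.ext (hE.1.2.2 _ hx)⟩⟩
  refine ⟨n, push k i z, push_mem_CC himono hiU hz,
    by rw [← push_bd himono hz, hz0, map_zero], fun w hw e => ?_⟩
  refine hzb (push k b w) (push_mem_CC hbmono hbU hw) ?_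
  rw [← push_bd hbmono hw, e]
  refine CC_induction (P := fun z => push k b (push k i z) = z) hz (by simp)
    (fun x y hx hy => by rw [map_add, map_add, hx, hy]) (fun t ht c => ?_)
  rw [push_single, push_single, Finset.image_image]
  congr 1
  exact (Finset.image_congr (g := id) fun T _ => hbi T).trans Finset.image_id

/-- Normal subgroups inherit the absence of normal `p`-subgroups. -/
theorem no_normal_pgroup (hOp : ∀ N : Subgroup G, N.Normal → IsPGroup p N → N = ⊥)
    (C : Subgroup G) [C.Normal] (N : Subgroup C) (hN : N.Normal) (hNp : IsPGroup p N) :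
    N = ⊥ := by
  obtain ⟨S0, hS0⟩ := hNp.exists_le_sylow
  set R : Subgroup C := ⨅ S : Sylow p C, (S : Subgroup C) with hR
  have hNR : N ≤ R := by
    refine le_iInf fun S => ?_
    obtain ⟨g, rfl⟩ := MulAction.exists_smul_eq C S0 S
    intro x hx
    rw [Sylow.coe_subgroup_smul, Subgroup.mem_pointwise_smul_iff_inv_smul_mem]
    refine hS0 ?_
    simpa [mul_assoc] using hN.conj_mem x hx g⁻¹
  have hRp : IsPGroup p R := S0.isPGroup'.to_le (iInf_le _ S0)
  have hn : (R.map C.subtype).Normal := by
    refine ⟨?_⟩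
    rintro _ ⟨x, hx, rfl⟩ g
    set a : MulAut C := MulAut.conjNormal g with ha
    refine ⟨a x, ?_, by simp [ha]⟩
    show a x ∈ R
    rw [hR, Subgroup.mem_iInf]
    intro S
    have h1 := Subgroup.mem_iInf.1 hx (a⁻¹ • S)
    rw [Sylow.pointwise_smul_def, Subgroup.mem_pointwise_smul_iff_inv_smul_mem, inv_inv] at h1
    exact h1
  have h0 := (Subgroup.map_eq_bot_iff_of_injective _ C.subtype_injective).1
    (hOp _ hn (hRp.map _))
  exact le_bot_iff.1 (h0 ▸ hNR)

end Vale.Agent.P240.Modular
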