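import Vale.Agent.P240.Smith.Rank
import Vale.Agent.P240.Smith.Eliminate
import Vale.Agent.P240.Robinson.Link
import Vale.Agent.P240.LinkHomology
import Vale.Agent.P240.Restrict

/-!
# Removing the factors with Robinson subgroups at one prime

Smith theory removes the factors with a Robinson `r`-subgroup, at the price of passing from
rational to mod `r` homology; any method giving rational homology for the remaining factors then
applies.
-/

set_option linter.unusedSectionVars false

open scoped Classical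

noncomputable section

namespace Vale.Agent.P240

/-- A link inside a subgroup is a link in the whole group. -/
theorem link_of_subgroup {X : Type*} [Group X] [Finite X] {p : ℕ} (k : Type*) [Field k]
    (Y : Subgroup X) (B : Subgroup Y) (h : HasReducedHomology k (Lk p B)) :
    HasReducedHomology k {E : Subgroup X | E ∈ Lk p (B.map Y.subtype) ∧ E ≤ Y} := by
  obtain ⟨n, z, hz, hz0, hzb⟩ := h
  set i := fun T : Subgroup Y => T.map Y.subtype with hi
  set b := fun E : Subgroup X => E.subgroupOf Y with hb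
  have hbi : ∀ T, b (i T) = T := fun T =>
    Subgroup.comap_map_eq_self_of_injective Y.subtype_injective T
  have hlt : ∀ a a' : Subgroup Y, a < a' → i a < i a' := fun a a' h =>
    lt_of_le_of_ne (Subgroup.map_mono h.le) fun e => h.ne (Subgroup.map_injective
      Y.subtype_injective e)
  have himono : ∀ a ∈ Lk p B, ∀ a' ∈ Lk p B, a < a' → i a < i a' := fun a _ a' _ h => hlt a a' h
  set U : Set (Subgroup X) := {E | E ∈ Lk p (B.map Y.subtype) ∧ E ≤ Y} with hU
  have hbmono : ∀ a ∈ U, ∀ a' ∈ U, a < a' → b a < b a' := fun a ha a' ha' h =>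
    lt_of_le_of_ne (Subgroup.comap_mono h.le) fun e => h.ne (by
      have := congrArg (Subgroup.map Y.subtype) e
      rwa [hb, Subgroup.map_subgroupOf_eq_of_le ha.2, Subgroup.map_subgroupOf_eq_of_le ha'.2]
        at this)
  have hiU : ∀ T ∈ Lk p B, i T ∈ U := fun T hT =>
    ⟨⟨hT.1.map _, hlt B T hT.2⟩, Subgroup.map_subtype_le _⟩
  have hbU : ∀ E ∈ U, b E ∈ Lk p B := fun E hE =>
    ⟨⟨fun x hx y hy => Subtype.ext (hE.1.1.1 _ hx _ hy),
      fun x hx => Subtype.ext (hE.1.1.2 _ hx)⟩, by
      refine lt_of_le_of_ne (fun x hx => hE.1.2.le ⟨x, hx, rfl⟩) fun e => hE.1.2.ne ?_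
      rw [e, hb, Subgroup.map_subgroupOf_eq_of_le hE.2]⟩
  refine ⟨n, push k i z, push_mem_CC himono hiU hz,
    by rw [← push_bd himono hz, hz0, map_zero], fun w hw e => ?_⟩
  refine hzb (push k b w) (push_mem_CC hbmono hbU hw) ?_
  rw [← push_bd hbmono hw, e]
  refine CC_induction (P := fun z => push k b (push k i z) = z) hz (by simp)
    (fun x y hx hy => by rw [map_add, map_add, hx, hy]) (fun t ht c => ?_)
  rw [push_single, push_single, Finset.image_image]
  congr 1
  exact (Finset.image_congr (g := id) fun T _ => hbi T).trans Finset.image_id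

namespace CompSys

variable {X : Type} [Group X] [Finite X] {K : Subgroup X} {ι : Type} [Fintype ι]
  {A : ι → Type} [∀ i, Group (A i)] [∀ i, Finite (A i)] (S : CompSys K A)
  {p r : ℕ} [Fact p.Prime] [Fact r.Prime]

include S in
/-- If systems without the factors in `R` have a rationally non-acyclic link, and the factors in
`R` have Robinson `r`-subgroups, then some link is not acyclic in characteristic `r`. -/
theorem exists_link_of_eliminate (k : Type*) [Field k] [CharP k r] (R : ι → Prop)
    (hR : ∀ i, R i → HasRobinson p r (A i))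
    (hrest : ∀ (Y : Type) [Group Y] [Finite Y] (K' : Subgroup Y),
      CompSys K' (fun i : {i // ¬ R i} => A i) →
        ∃ B : Subgroup Y, IsElem p B ∧ B ⊓ K' = ⊥ ∧ HasReducedHomology ℂ (Lk p B)) :
    ∃ B : Subgroup X, IsElem p B ∧ B ⊓ K = ⊥ ∧ HasReducedHomology k (Lk p B) := by
  choose Q hQne hQr hQinv hQaut using hR
  set FR : Subgroup X :=
    (Subgroup.pi Set.univ fun i => if R i then (⊤ : Subgroup (A i)) else ⊥).map S.φ with hFR
  set Y : Subgroup X := S.cenOf R with hY
  have hcomm : ∀ g ∈ Y, ∀ q ∈ FR, g * q = q * g := by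
    rintro g hg _ ⟨f, hf, rfl⟩
    refine S.commute_phi f fun i => ?_
    by_cases hi : R i
    · exact hg i hi (f i)
    · have := (Subgroup.mem_pi _).1 hf i trivial
      rw [if_neg hi, Subgroup.mem_bot] at this
      rw [this, map_one, one_mul, mul_one]
  obtain ⟨B, hB, hBK, hhom⟩ := hrest Y _ (S.restrictSys R)
  refine ⟨B.map Y.subtype, hB.map _, ?_, ?_⟩
  · rw [Subgroup.eq_bot_iff_forall]
    rintro _ ⟨⟨b, hb, rfl⟩, hbK⟩
    have : b ∈ B ⊓ K.subgroupOf Y := ⟨hb, hbK⟩
    rw [hBK, Subgroup.mem_bot] at this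
    rw [this, map_one]
  set C := B.map Y.subtype with hC
  rw [hasReducedHomology_iff]
  by_contra hno
  push Not at hno
  let : Fintype (Subgroup X) := Fintype.ofFinite _
  let Qa : ∀ i, Subgroup (A i) := fun i => if h : R i then Q i h else ⊥
  set Pa : Subgroup X := (Subgroup.pi Set.univ Qa).map S.φ with hPa
  have hPar : IsPGroup r Pa := by
    refine IsPGroup.map ?_ S.φ
    intro f
    have hT : ∀ i, ∃ m, ((f : Π i, A i) i) ^ r ^ m = 1 := by
      intro i
      have hf := (Subgroup.mem_pi _).1 f.2 i trivial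
      by_cases h : R i
      · rw [show Qa i = Q i h from dif_pos h] at hf
        obtain ⟨m, hm⟩ := hQr i h ⟨_, hf⟩
        exact ⟨m, by simpa using congrArg Subtype.val hm⟩
      · rw [show Qa i = ⊥ from dif_neg h, Subgroup.mem_bot] at hf
        exact ⟨0, by simp [hf]⟩
    choose m hm using hT
    refine ⟨Finset.univ.sup m, Subtype.ext (funext fun i => ?_)⟩
    obtain ⟨d, hd⟩ := Nat.exists_eq_add_of_le (Finset.le_sup (f := m) (Finset.mem_univ i))
    simp [hd, pow_add, pow_mul, hm i]
  have hPFR : Pa ≤ FR := Subgroup.map_mono fun f hf => (Subgroup.mem_pi _).2 fun i _ => by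
    by_cases h : R i
    · simp [h]
    · have := (Subgroup.mem_pi _).1 hf i trivial
      rw [show Qa i = ⊥ from dif_neg h] at this
      simpa [h] using this
  have hCY : C ≤ Y := Subgroup.map_subtype_le _
  have hfixY : ∀ q ∈ FR, ∀ E : Subgroup X, E ≤ Y → cj q E = E := fun q hq E hE =>
    cj_of_centralizes fun e he => (hcomm e (hE he) q hq).symm
  let act : MulAction Pa (Subgroup X) :=
    { smul := fun x E => cj (x : X) E
      one_smul := fun E => cj_one E
      mul_smul := fun x y E => cj_mul (x : X) (y : X) E }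
  have h1 := @Smith.fixed_acyclic_group k _ (Subgroup X) _ _ r _ _ Pa _ _ hPar act
    (fun x a b h => (cj (x : X)).monotone h) (Lk p C)
    (fun x a ha => ⟨ha.1.cj _, lt_of_eq_of_lt (hfixY _ (hPFR x.2) C hCY).symm
      ((cj (x : X)).strictMono ha.2)⟩) hno
  have hset : {E : Subgroup X | E ∈ Lk p C ∧ E ≤ Y} =
      {E | E ∈ Lk p C ∧ ∀ x : Pa, cj (x : X) E = E} := by
    ext E
    refine ⟨fun ⟨hE, hle⟩ => ⟨hE, fun x => hfixY _ (hPFR x.2) E hle⟩,
      fun ⟨hE, hfix⟩ => ⟨hE, fun e he i hi => ?_⟩⟩
    refine S.cen_of_normalised (hQne i hi) (hQinv i hi) (hQaut i hi) hE.1 (fun q hq x hx => ?_) he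
    have hmem : S.j i q ∈ Pa := ⟨Pi.mulSingle i q, (Subgroup.mem_pi _).2 fun l _ => by
      by_cases hl : l = i
      · subst hl; simpa [Qa, hi] using hq
      · simp [hl], rfl⟩
    rw [← hfix ⟨_, hmem⟩, mem_cj]
    simpa [mul_assoc] using hx
  have h2 := link_of_subgroup ℂ Y B hhom
  rw [hset] at h2
  exact Smith.not_hasReducedHomology_complex h1 h2

end CompSys


end Vale.Agent.P240
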