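import Vale.Agent.P240.Pinned.Eliminate
import Vale.Agent.P240.Robinson.Radical

/-!
# Combining the three ways of removing components
-/

set_option linter.unusedSectionVars false

open scoped Classical

noncomputable section

namespace Vale.Agent.P240

/-- The factors are of three kinds: with a pinned cycle, with a Robinson `r`-subgroup, and the
others, which have either all Robinson `s`-subgroups or, when `p = 2`, all separation data. -/
def Mixed (p r s : ℕ) {ι : Type} (A : ι → Type) [∀ i, Group (A i)] : Prop :=
  (∀ i, HasPinnedCycle p (A i) ∨ HasRobinson p r (A i) ∨ HasRobinson p s (A i)) ∨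
    (p = 2 ∧ ∀ i, HasPinnedCycle p (A i) ∨ HasRobinson p r (A i) ∨ Nonempty (SepData (A i)))

/-- The factors have pinned cycles or are all alike: Robinson `s`-subgroups or separation data. -/
def Uniform (p s : ℕ) {ι : Type} (A : ι → Type) [∀ i, Group (A i)] : Prop :=
  (∀ i, HasPinnedCycle p (A i) ∨ HasRobinson p s (A i)) ∨
    (p = 2 ∧ ∀ i, HasPinnedCycle p (A i) ∨ Nonempty (SepData (A i)))

theorem Mixed.restrict {p r s : ℕ} {ι : Type} {A : ι → Type} [∀ i, Group (A i)]
    (h : Mixed p r s A) (I : Finset ι) : Mixed p r s (fun i : I => A i) :=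
  h.imp (fun h i => h i) fun h => ⟨h.1, fun i => h.2 i⟩

namespace CompSys

variable {X : Type} [Group X] [Finite X] {K : Subgroup X} {ι : Type} [Fintype ι]
  {A : ι → Type} [∀ i, Group (A i)] [∀ i, Finite (A i)] (S : CompSys K A)
  {p r s : ℕ} [Fact p.Prime] [Fact r.Prime] [Fact s.Prime]

include S in
theorem exists_link_of_mixed (k : Type) [Field k] [CharP k r] (h : Mixed p r s A) :
    ∃ B : Subgroup X, IsElem p B ∧ B ⊓ K = ⊥ ∧ HasReducedHomology k (Lk p B) := by
  refine S.exists_link_of_pinned k (fun i => HasPinnedCycle p (A i)) (fun _ hi => hi)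
    fun Y _ _ K' S1 => ?_
  refine S1.exists_link_of_eliminate k (fun i => HasRobinson p r (A i.1)) (fun _ hi => hi)
    fun Z _ _ K'' S2 => ?_
  let : Fintype (Subgroup Z) := Fintype.ofFinite _
  rcases h with h | ⟨rfl, h⟩
  · exact S2.exists_link_of_robinson (p := p) (r := s) fun i =>
      ((h i.1.1).resolve_left i.1.2).resolve_left i.2
  · exact S2.exists_link_homology fun i => (((h i.1.1).resolve_left i.1.2).resolve_left i.2).some

end CompSys

theorem Uniform.hasLinks {p s : ℕ} [Fact p.Prime] [Fact s.Prime] {ι : Type} {A : ι → Type}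
    [∀ i, Group (A i)] [∀ i, Finite (A i)] (h : Uniform p s A) : HasLinks p A := by
  intro I X _ _ K S
  refine S.exists_link_of_pinned ℂ (fun i : I => HasPinnedCycle p (A i)) (fun _ hi => hi)
    fun Y _ _ K' S1 => ?_
  let : Fintype (Subgroup Y) := Fintype.ofFinite _
  rcases h with h | ⟨rfl, h⟩
  · exact S1.exists_link_of_robinson (p := p) (r := s) fun i => (h i.1).resolve_left i.2
  · exact S1.exists_link_homology fun i => ((h i.1).resolve_left i.2).some

end Vale.Agent.P240
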